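import Crest.Agent.N255.Ma.Wd
import Crest.Agent.N255.Io.Mon
import Crest.Agent.N255.Jt.O
import Crest.Agent.N255.Ma.Vd
import Crest.Agent.N255.Jt.Bs
import Crest.Agent.N255.Lp.Cmp

-- ▼ part N255/Io/Adm
section

/-!
# Row 255 (helper11): the fields `hy` and `adm` from orders in the twisted ring
-/

set_option autoImplicit false
set_option linter.unusedSectionVars false
open Set Function Sum

noncomputable section

namespace Crest.Agent.N255.Io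

open _root_.N255.Dr _root_.N255.Dr.O Cs Cs.Tw Ku Jt Ma
open _root_.N255.Core (Wall)

variable {p : ℕ} [Fact p.Prime] {J : Fin 3 → Type} [∀ i, Fintype (J i)]
  {G : Gr (Gm p) (ZMod p) (O p (ZMod p) (Σ i, Uv p (J i)))}

variable (G) in
/-- the variable `x` of slot `i` in the twisted ring of the vertex -/
def x2 (i : Fin 3) (x : J i ⊕ Bool) : Tw G := up G (∑ γ, z ⟨i, (x, γ)⟩)

variable (p J) in
/-- the variables `y` and `w` of all slots -/
def YW2 : Set (Σ i, Uv p (J i)) := {q | ∃ c, q.2.1 = inr c}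

theorem pr_x2 (hO : ∀ q, G.Hg q.2.2 (z q)) (i : Fin 3) (x : J i ⊕ Bool) (γ : Gm p) :
    G.pr γ (o G (x2 G i x)) = z ⟨i, (x, γ)⟩ :=
  pr_XX (e := fun q : Uv p (J i) => (⟨i, q⟩ : Σ i, Uv p (J i))) hO (fun _ => rfl) x γ

theorem x2_in {I : Ideal (O p (ZMod p) (Σ i, Uv p (J i)))} {i : Fin 3} {x : J i ⊕ Bool}
    (h : ∀ γ, z ⟨i, (x, γ)⟩ ∈ I) : In I (x2 G i x) := sum_mem fun γ _ => h γ

theorem pr_xv {L : Type} [Fintype L] (x : L ⊕ Bool) (γ : Gm p) :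
    (GU p L).pr γ (o _ (xv p x)) = z (x, γ) :=
  pr_XX (e := fun q : Uv p L => q) (GU_z p L) (fun _ => rfl) x γ

variable {i : Fin 3} {io : OU p (J i) →ₐ[ZMod p] O p (ZMod p) (Σ i, Uv p (J i))}

/-- the components of the correction -/
theorem pr_cor (hO : ∀ q, G.Hg q.2.2 (z q)) (h : (GU p (J i)).Hom G io) (x : J i ⊕ Bool) (γ : Gm p) :
    G.pr γ (o G (Tw.map h (xv p x) - x2 G i x)) = io (z (x, γ)) - z ⟨i, (x, γ)⟩ := by
  rw [map_sub, map_sub, pr_x2 hO, o_map, ← h, pr_xv]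

theorem cor_mem (hO : ∀ q, G.Hg q.2.2 (z q)) (h : (GU p (J i)).Hom G io)
    {I : Ideal (O p (ZMod p) (Σ i, Uv p (J i)))} (hI : G.Id I) {x : J i ⊕ Bool}
    (hx : In I (Tw.map h (xv p x) - x2 G i x)) (γ : Gm p) : io (z (x, γ)) - z ⟨i, (x, γ)⟩ ∈ I :=
  pr_cor hO h x γ ▸ hI γ _ hx

theorem cor_eq (hO : ∀ q, G.Hg q.2.2 (z q)) (h : (GU p (J i)).Hom G io) {x : J i ⊕ Bool}
    (hx : Tw.map h (xv p x) = x2 G i x) (γ : Gm p) : io (z (x, γ)) = z ⟨i, (x, γ)⟩ :=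
  sub_eq_zero.1 (by rw [← pr_cor hO h, hx, sub_self, map_zero, map_zero])

theorem kdU_none {L : Type} {τ : Ma.Ty L} {x : Uv p L} : τ.kdU p x = none ↔ x.1 = inr true := by
  rcases x with ⟨j | _ | _, γ⟩ <;> simp [Ty.kdU]

/-- the image of the ideal of `y`, `w` of a wall -/
theorem map_YW (hO : ∀ q, G.Hg q.2.2 (z q)) (h : (GU p (J i)).Hom G io) (hm : ∀ u, io (z u) ∈ mx)
    (hc : ∀ c, In (mx * mx) (Tw.map h (xv p (inr c)) - x2 G i (inr c))) {f : Tw (GU p (J i))}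
    (hf : In (Jl p (ZMod p) {u | ∃ c, u.1 = inr c}) f) :
    In (Jl p (ZMod p) (YW2 p J)) (Tw.map h f) := by
  refine map_Jl io hm ?_ hf
  rintro ⟨_, γ⟩ ⟨c, rfl⟩
  rw [← sub_add_cancel (io _) (z ⟨i, (inr c, γ)⟩)]
  exact add_mem (Ideal.mem_sup_right (cor_mem hO h ((Tg.id_mx hO).mul (Tg.id_mx hO)) (hc c) γ))
    (z_Jl ⟨c, rfl⟩)

variable {τ : ∀ i, Ma.Ty (J i)} {w : ∀ i, Wall p (Gm p) (g0 p) (Uv p (J i))} {c B : ℕ}
  {T : _root_.N255.Wt.Ty w c B} {hc : ∀ i j, (τ i).dp j ≤ c}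

theorem kd_w (hT : ∀ i, T.σ i = (τ i).sg p (hc i)) (i : Fin 3) (x : Uv p (J i)) :
    (w i).kd x = (τ i).kdU p x := by rw [T.kd, hT]; rfl

/-- the field `hy` -/
theorem hy_all (hO : ∀ q, G.Hg q.2.2 (z q)) (h : (GU p (J i)).Hom G io)
    (hT : ∀ i, T.σ i = (τ i).sg p (hc i)) (hy : Tw.map h (xv p (inr true)) = x2 G i (inr true))
    (x : Uv p (J i)) (hx : (w i).kd x = none) : io (z x) = z ⟨i, x⟩ := by
  obtain ⟨x, γ⟩ := x
  obtain rfl : x = inr true := kdU_none.1 (kd_w hT i _ ▸ hx)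
  exact cor_eq hO h hy γ

theorem YW2_Hv (hT : ∀ i, T.σ i = (τ i).sg p (hc i)) {j : J i} (h : (τ i).sc j ≤ 2 * c) (γ : Gm p) :
    YW2 p J ⊆ Hv w i (inl j, γ) := by
  rintro ⟨i', x, γ'⟩ ⟨b, e⟩
  obtain rfl : x = @inr (J i') Bool b := e
  rcases b with _ | _
  · exact Hv_w T (by simp [kd_w hT, Ty.kdU]) (by rw [hT]; rfl) (by rw [hT]; exact h)
      (by simp [kd_w hT, Ty.kdU]) (by rw [hT]; rfl)
  · exact Hv_y T (by simp [kd_w hT, Ty.kdU]) (by rw [hT]; exact h.trans (by omega))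
      (by simp [kd_w hT, Ty.kdU])

/-- the allowed linear transfers, weak form -/
def Tf0 (τ : ∀ i, Ma.Ty (J i)) (i : Fin 3) (j : J i) (q : Σ i, J i ⊕ Bool) : Prop :=
  (τ i).sc j = 0 ∧ ((∃ j', q.2 = inl j' ∧ (τ i).dp j < (τ q.1).dp j') ∨ ∃ c, q.2 = inr c)

theorem Tf0.hv (hT : ∀ i, T.σ i = (τ i).sg p (hc i)) {j : J i} {q : Σ i, J i ⊕ Bool}
    (h : Tf0 τ i j q) (γ γ' : Gm p) : (⟨q.1, (q.2, γ')⟩ : Σ i, Uv p (J i)) ∈ Hv w i (inl j, γ) := by
  obtain ⟨i', x⟩ := q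
  obtain ⟨h0, ⟨j' : J i', e, h1⟩ | ⟨c', e⟩⟩ := h
  · dsimp only at e h1 ⊢
    subst e
    exact Hv_dp T (by simp [kd_w hT, Ty.kdU]) (by rw [hT]; rfl) (by rw [hT]; exact h0)
      (by simp [kd_w hT, Ty.kdU]) (by rw [hT]; rfl) (by rw [hT, hT]; exact h1)
  · exact YW2_Hv hT (by omega) γ ⟨c', e⟩

/-- the class variables -/
theorem adm_inl (hO : ∀ q, G.Hg q.2.2 (z q)) (h : (GU p (J i)).Hom G io)
    (hT : ∀ i, T.σ i = (τ i).sg p (hc i)) {d : ℕ} (hd : d < 2 * c) {j : J i}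
    {lx : (Σ i, J i ⊕ Bool) → ZMod p} {xG : (Σ i, J i ⊕ Bool) → Tw G}
    (tf : ∀ q, lx q ≠ 0 → Tf0 τ i j q) (hG : ∀ q, In (mx * mx) (xG q - x2 G q.1 q.2))
    (h1 : In (Jl p (ZMod p) (YW2 p J)) (Tw.map h (xv p (inl j)) - x2 G i (inl j) - ∑ q, lx q • xG q))
    (h2 : d + 2 ≤ (τ i).sc j → In (mx ^ ((τ i).sc j - d))
      (Tw.map h (xv p (inl j)) - x2 G i (inl j) - ∑ q, lx q • xG q)) (γ : Gm p) :
    Adm T id i (inl j, γ) (io (z (inl j, γ)) - z ⟨i, (inl j, γ)⟩) := by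
  have e : (T.σ i).sc (inl j, γ) = (τ i).sc j := by rw [hT]; rfl
  by_cases hs : (τ i).sc j ≤ 2 * c
  · refine .inr ⟨by omega, ?_⟩
    rw [image_id, ← Jl_eq]
    refine cor_mem hO h (id_Jl hO _) ?_ γ
    refine In.eq (In.add (h1.mono (Jl_mono (YW2_Hv hT hs γ))) (In.sum fun q _ => ?_))
      (sub_add_cancel _ _).symm
    by_cases h0 : lx q = 0
    · rw [h0, zero_smul]; exact Cs.in_zero
    · exact in_smul _ (In.eq (In.add ((hG q).mono le_sup_right)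
        (x2_in fun γ' => z_Jl ((tf q h0).hv hT γ γ'))) (sub_add_cancel _ _).symm)
  · have h0 : ∀ q, lx q = 0 := fun q => by
      by_contra h0
      have := (tf q h0).1
      omega
    refine .inl ⟨(τ i).sc j - d, by omega, by omega, cor_mem hO h ((Tg.id_mx hO).pow _) ?_ γ⟩
    simpa [h0] using h2 (by omega)

/-- the holonomy variable -/
theorem adm_w (hO : ∀ q, G.Hg q.2.2 (z q)) (h : (GU p (J i)).Hom G io)
    (hT : ∀ i, T.σ i = (τ i).sg p (hc i))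
    (hw : In (mx * mx) (Tw.map h (xv p (inr false)) - x2 G i (inr false))) (γ : Gm p) :
    Adm T id i (inr false, γ) (io (z (inr false, γ)) - z ⟨i, (inr false, γ)⟩) :=
  .inl ⟨2, le_rfl, by rw [hT]; exact Nat.zero_le _,
    sq (mx : Ideal (O p (ZMod p) (Σ i, Uv p (J i)))) ▸
      cor_mem hO h ((Tg.id_mx hO).mul (Tg.id_mx hO)) hw γ⟩

/-- **the field `adm`** -/
theorem adm_all (hO : ∀ q, G.Hg q.2.2 (z q)) (h : (GU p (J i)).Hom G io)
    (hT : ∀ i, T.σ i = (τ i).sg p (hc i)) {d : ℕ} (hd : d < 2 * c)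
    {lx : J i → (Σ i, J i ⊕ Bool) → ZMod p} {xG : (Σ i, J i ⊕ Bool) → Tw G}
    (tf : ∀ j q, lx j q ≠ 0 → Tf0 τ i j q) (hG : ∀ q, In (mx * mx) (xG q - x2 G q.1 q.2))
    (hw : In (mx * mx) (Tw.map h (xv p (inr false)) - x2 G i (inr false)))
    (h1 : ∀ j, In (Jl p (ZMod p) (YW2 p J))
      (Tw.map h (xv p (inl j)) - x2 G i (inl j) - ∑ q, lx j q • xG q))
    (h2 : ∀ j, d + 2 ≤ (τ i).sc j → In (mx ^ ((τ i).sc j - d))
      (Tw.map h (xv p (inl j)) - x2 G i (inl j) - ∑ q, lx j q • xG q))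
    (x : Uv p (J i)) (hx : (w i).kd x ≠ none) : Adm T id i x (io (z x) - z ⟨i, x⟩) := by
  rcases x with ⟨j | _ | _, γ⟩
  · exact adm_inl hO h hT hd (tf j) hG (h1 j) (h2 j) γ
  · exact adm_w hO h hT hw γ
  · exact absurd (by simp [kd_w hT, Ty.kdU]) hx

end Crest.Agent.N255.Io

end
end

-- ▼ part N255/Vf/Adm

/-!
# Row 255 (helper11): the fields `hy` and `adm` at a vertex, linear parts of the nonlinear terms
-/

set_option autoImplicit false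
open Set Module Sum

noncomputable section

namespace Crest.Agent.N255.Ma
open Tp Nv Pt Lv En Wn Le Cs Cs.Tw Ku Lp Jt Io _root_.N255.Dr _root_.N255.Dr.O
open _root_.N255.Core (Wall)

variable {F : Subgroup F3} {S : Type} [MulAction F3 S] {X : Type} [TopologicalSpace X]
  [MulAction F X] [ContinuousConstSMul F X] {p : ℕ} [Fact p.Prime]
  {g : Geo F (ZMod p) S X} {u R₀ : ℝ} {n : ℕ}

/-- the nonlinear term of a wall has only `y`, `w` in its linear part -/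
theorem Wd.nl_Jl {J : Type} [Fintype J] {τ : Ty J} {e' : Ed (Fin 3)} {o : Bool}
    (ω : Wd g u R₀ n τ e' o) (σ : Sx 2 X) :
    In (Jl p (ZMod p) {x : Uv p J | ∃ c, x.1 = inr c}) (nl (ZMod p) ω.g1 ω.Sr ω.gU σ) := by
  have k : ∀ c, In (Jl p (ZMod p) {x : Uv p J | ∃ c, x.1 = inr c}) (xv p (inr c)) := fun c =>
    sum_mem fun γ _ => z_Jl ⟨c, rfl⟩
  refine fam_nl (A := src ω.ct fun j => xv p (inl j)) ω.fam le_sup_right (fun e => ?_)
    (fun σ => by rw [cob_src, Wd.Sr, sub_self]; exact Cs.in_zero) σ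
  have k' : ∀ c, In (Jl p (ZMod p) {x : Uv p J | ∃ c, x.1 = inr c}) ((uv p (inr c)).val - 1) :=
    fun c => In.eq (k c) (uv_sub p _)
  refine In.eq (In.add (In.add ((pow_jet (uv_U p (inr true)) (uv_U p (inr false))
    (g.E.toLev.mz g.M R₀ (me e' o) e) (g.E.toLev.mz g.M R₀ (rev (me e' o)) e)).mono le_sup_right)
    (In.add (In.zsmul (k' true) (g.E.toLev.mz g.M R₀ (me e' o) e))
      (In.zsmul (k' false) (g.E.toLev.mz g.M R₀ (rev (me e' o)) e))))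
    (In.sum fun c (_ : c ∈ Finset.univ) => in_smul (ω.cx (inr c) e) (k c))) ?_
  rw [show Cs.dif ω.g1 1 = Cs.dif (ω.g0 (uv p (inr true)) (uv p (inr false))) 1 +
    Lp.src ω.cx (xv p) from dif_pl_one, sub_add_cancel]
  simp only [Lp.src, Pi.add_apply, Pi.sub_apply, Fintype.sum_sum_type, dif_one, Wd.g0]
  change _ + (∑ j, ω.ct j e • _ + _) - _ = _
  abel

variable {J : Fin 3 → Type} [∀ i, Fintype (J i)] {τ : ∀ i, Ty (J i)} {v : F3} {h o : Fin 3 → Bool}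

theorem xV_YW (i : Fin 3) (c : Bool) : In (Jl p (ZMod p) (YW2 p J)) (xV p ⟨i, inr c⟩) :=
  sum_mem fun _ _ => z_Jl ⟨c, rfl⟩

namespace Vd
variable (D : Vd g u R₀ n τ v h o)

theorem la_mm (i : Fin 3) : In (mx * mx) (D.la i) := D.V0.la_in (G2_mx p J) (xM_U p o) i

theorem bV_mm (i : Fin 3) : In (mx * mx) ((D.bV i).val - 1 - xV p ⟨i, inr false⟩) := by
  unfold bV
  split_ifs
  · exact In.eq (D.la_mm i) (by rw [val_un]; abel)
  · rw [uV_sub, sub_self]; exact Cs.in_zero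

theorem xG_mm (q : Cl3 J) : In (mx * mx) (D.xG q - xV p q) := by
  obtain ⟨i, j | _ | _⟩ := q
  exacts [In.eq Cs.in_zero (sub_self _), D.bV_mm i, In.eq Cs.in_zero (sub_self _)]

theorem bV_YW (i : Fin 3) : In (Jl p (ZMod p) (YW2 p J)) ((D.bV i).val - 1) :=
  In.eq (In.add ((D.bV_mm i).mono le_sup_right) (xV_YW i false)) (sub_add_cancel _ _).symm

theorem tf0 {i : Fin 3} {j : J i} {q : Cl3 J} (e : D.lin.lx i j q ≠ 0) : Tf0 τ i j q :=
  let ⟨_, _, h0, h1⟩ := D.lin.tf i j q e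
  ⟨h0, h1.imp (fun ⟨j', a, _, _, b⟩ => ⟨j', a, b⟩) fun a => ⟨_, a.1⟩⟩

/-- the nonlinear term of the vertex has only `y`, `w` in its linear part -/
theorem nl_Jl (σ : Sx 2 X) : In (Jl p (ZMod p) (YW2 p J)) (nl (ZMod p) D.G1 D.SG D.GV σ) := by
  have hC : Pairwise fun i j => Disjoint (D.C i) (D.C j) := fun i j e =>
    Set.disjoint_left.2 fun x hx => Vl.hi_compl e (D.c_pos i).le (D.c_pos j).le hx
  have k0 := bs_in (V := D.V0) (hn := Tg.mx_nil) (hx := xM_U p o) (a := aV p J) (b := D.bV)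
    (ε := fun _ => 0) (J := Jl p (ZMod p) (YW2 p J)) le_sup_right hC (fun _ => uV_U p _) D.bV_U
    (fun i => In.eq (xV_YW i _) (uV_sub p _)) (fun i => In.eq (xV_YW i _) (uV_sub p _))
    (fun i => In.eq (D.bV_YW i) (sub_zero _))
  have k1 : ∀ i c, In (Jl p (ZMod p) (YW2 p J)) (D.xG ⟨i, inr c⟩) := by
    rintro i (_ | _)
    exacts [D.bV_YW i, xV_YW i _]
  refine fam_nl (A := Lp.src (fun q : Σ i, J i => D.lin.cG ⟨q.1, inl q.2⟩) fun q => xV p ⟨q.1, inl q.2⟩)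
    D.fam le_sup_right (fun e => ?_) (fun σ => ?_) σ
  · refine In.eq (In.add (k0 e) (In.sum fun i (_ : i ∈ Finset.univ) =>
      In.sum fun c (_ : c ∈ Finset.univ) => in_smul (D.lin.cG ⟨i, inr c⟩ e) (k1 i c))) ?_
    rw [G1, dif_pl_one]
    simp only [Lp.src, Pi.add_apply, Pi.sub_apply, Fintype.sum_sigma, Fintype.sum_sum_type,
      Finset.sum_add_distrib, smul_zero, Finset.sum_const_zero, sub_zero]
    change _ + (∑ i, ∑ j, D.lin.cG ⟨i, inl j⟩ e • xV p ⟨i, inl j⟩ + _) - _ = _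
    rw [G0]
    abel
  · refine In.eq (In.sum fun i (_ : i ∈ Finset.univ) => In.sum fun c (_ : c ∈ Finset.univ) =>
      in_smul (D.qa ⟨i, inr c⟩ σ) (xV_YW i c)) ?_
    rw [cob_src, SG]
    simp only [Lp.src, Pi.sub_apply, Fintype.sum_sigma, Fintype.sum_sum_type, Finset.sum_add_distrib,
      D.lin.cob_inl]
    exact add_sub_cancel_left _ _

section io
variable {D} {i : Fin 3} {io : OU p (J i) →ₐ[ZMod p] OV p J} (hom : (GU p (J i)).Hom (G2 p J) io)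

theorem map_y (a : um hom (uv p (inr true)) = aV p J i) :
    Tw.map hom (xv p (inr true)) = xV p ⟨i, inr true⟩ := by
  rw [← uv_sub, map_sub, map_one, ← val_um, a, aV, uV_sub]

theorem map_w (b : um hom (uv p (inr false)) = D.bV i) :
    Tw.map hom (xv p (inr false)) = (D.bV i).val - 1 := by
  rw [← uv_sub, map_sub, map_one, ← val_um, b]

/-- **the field `h1` of `Cmp`** from the defining equation of `io` -/
theorem h1_of (hm : ∀ x, io (z x) ∈ mx) (a : um hom (uv p (inr true)) = aV p J i)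
    (b : um hom (uv p (inr false)) = D.bV i) (lam mu : J i → Dual (ZMod p) (Co (ZMod p) 2 X)) (j : J i) :
    In (Jl p (ZMod p) (YW2 p J)) (dl lam mu
      (mc hom (nl (ZMod p) (D.ω i).g1 (D.ω i).Sr (D.ω i).gU)) (nl (ZMod p) D.G1 D.SG D.GV) j) := by
  refine dl_mem (fun σ => map_YW (G2_z p J) hom hm ?_ ((D.ω i).nl_Jl σ)) D.nl_Jl j
  rintro (_ | _)
  · rw [map_w hom b]; exact D.bV_mm i
  · rw [map_y hom a]; exact In.eq Cs.in_zero (sub_self _)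

end io

variable {D} {w : ∀ i, Wall p (Cs.Gm p) (Cs.g0 p) (Uv p (J i))} {c B : ℕ}
  {T : _root_.N255.Wt.Ty w c B} {hc : ∀ i j, (τ i).dp j ≤ c}

/-- **the field `hy`** -/
theorem Cmp.hy (C : D.Cmp) (hT : ∀ i, T.σ i = (τ i).sg p (hc i)) (i : Fin 3) (x : Uv p (J i))
    (hx : (w i).kd x = none) : C.io i (z x) = z ⟨i, x⟩ :=
  hy_all (G2_z p J) (C.hom i) hT (map_y (C.hom i) (C.a i)) x hx

/-- **the field `adm`** -/
theorem Cmp.adm (C : D.Cmp) (hT : ∀ i, T.σ i = (τ i).sg p (hc i)) (i : Fin 3) (x : Uv p (J i))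
    (hx : (w i).kd x ≠ none) : Adm T id i x (C.io i (z x) - z ⟨i, x⟩) :=
  adm_all (d := 2) (G2_z p J) (C.hom i) hT (by have := T.pos; omega) (fun _ _ => D.tf0) D.xG_mm
    (by rw [map_w (C.hom i) (C.b i)]; exact D.bV_mm i) (C.h1 i) (fun j _ => C.h2 i j) x hx


end Vd

end Crest.Agent.N255.Ma

end
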